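import Vale.Agent.P088.R2.H660.P.Rows
import Vale.Agent.P088.R2.H710.EP.GR
import Vale.Agent.P088.R2.H222.LevT
import Vale.Agent.P088.R2.H222.P.Pf

/-!
# P088, stage 3, zone P: row P-SZ, the sizes at the pass

On `OmP`: `u ≥ 0`, `|N + G - L G| ≤ small G`, hence `N ≤ κ G`.
-/

open Set Filter
open scoped ContDiff Topology

noncomputable section

namespace Vale.Agent.P088.R2.H222.P

open Vale.Agent.P088.LR
open Vale.Agent.P088.HY hiding dd rr
open Vale.Agent.P088.R2.H475 Vale.Agent.P088.R2.H31.EP Vale.Agent.P088.R2.H404.INF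
open Vale.Agent.P088.R2.H710.GP
open Vale.Agent.P088.R2.H660.P (sP tP Wc2 kP KP OmP)
open Vale.Agent.P088.R2.H747.A (ff GG D₂ lS lS₁ lS₂ OmB)
open Vale.Agent.P088.R2.H464.Cu (mid dif rq)
open Vale.Agent.P088.R2.H606.EP (prS₁ prS₂ prS_d1 prS_d2)

variable {n : ℕ} {q : Cst} {d : Pk n} {z : VV n}


/-! ## The conditions on the constants -/

/-- The conditions on the constants; `dl` is the precision. -/
structure SzC (n : ℕ) (q : Cst) (dl : ℝ) : Prop extends GD n q where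
  e5 : q.e₁ ≤ 1 / 200
  rT4 : 1000 * q.rT ≤ kP q
  rTd : 100 * q.rT ≤ dl
  M4 : ∀ r, 0 < r → r ≤ 3 * q.p₁ → 4 * (prL q.e₁ r * prS q.e₁ (r ^ 2)) ≤ q.M₀
  εs : (n + 2) * (kD n q.e₁ * q.ε) ≤ q.σ
  Ra : 600 * n * q.p₁ ≤ q.R
  Rb : 6 * n * q.p₁ ≤ q.κ₁ * q.R
  Rc : 4 * q.p₁ ≤ q.κ₁ * q.R

theorem kP_pos (h : H509.Rad.Ok q.e₁ rp) : 0 < kP q := by
  have := Cst.p₁_ge h
  unfold kP
  positivity

theorem ev_gd (n : ℕ) : EvC (GD n) := by
  have a1 := EvC.at_ε (fun _ t => t ≤ 1 / (4 * (n + 1) ^ 2)) fun _ => sml_le (by positivity)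
  have a2 : EvC fun q => 0 < q.c' → 0 < q.p₁ → 20 * q.p₁ / q.c' < q.M₀ * Real.exp (-1) :=
    EvC.at_M₀ (fun q t => 0 < q.c' → 0 < q.p₁ → 20 * q.p₁ / q.c' < t * Real.exp (-1)) fun q => by
      have h1 : Tendsto (fun t : ℝ => t * Real.exp (-1)) atTop atTop :=
        tendsto_id.atTop_mul_const (Real.exp_pos _)
      exact (h1.eventually_gt_atTop _).mono fun t ht _ _ => ht
  refine (((a1.and a2).and evG).and EvC.pos).mono fun q h => ?_
  obtain ⟨⟨⟨b1, b2⟩, g⟩, ⟨-, ⟨-, -, c0, -⟩, M1, -, ε0, -⟩⟩ := h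
  have hp := Cst.p₁_ge g.rad
  have b1' : q.ε ≤ 1 / (4 * (n + 1) ^ 2) := b1
  rw [le_div_iff₀ (by positivity)] at b1'
  have hn : (0 : ℝ) ≤ n := Nat.cast_nonneg n
  have k1 : q.ε * (n + 1) ^ 2 ≤ 1 / 4 := by linarith
  have k2 : q.ε * n ^ 2 ≤ q.ε * (n + 1) ^ 2 := by
    refine mul_le_mul_of_nonneg_left ?_ ε0.le
    nlinarith
  have k3 : q.ε * n ≤ q.ε * (n + 1) ^ 2 := by
    refine mul_le_mul_of_nonneg_left ?_ ε0.le
    nlinarith
  have k4 : q.ε * 1 ≤ q.ε * (n + 1) ^ 2 := by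
    refine mul_le_mul_of_nonneg_left ?_ ε0.le
    nlinarith
  refine ⟨g, ε0, by linarith, by linarith, by linarith, ?_⟩
  have b2' := b2 c0 (by linarith)
  rw [div_lt_iff₀ c0] at b2'
  have k5 : 10 * q.p₁ < q.r₁ * Real.exp (-1) := by
    unfold Cst.r₁
    nlinarith
  have k6 : (10 * q.p₁) ^ 2 < (q.r₁ * Real.exp (-1)) ^ 2 :=
    pow_lt_pow_left₀ k5 (by linarith) two_ne_zero
  nlinarith

theorem ev_sz (n : ℕ) (dl : Cst → ℝ) (hd : NB_rT dl) (hd0 : ∀ q, 0 < dl q) :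
    EvC fun q => SzC n q (dl q) := by
  have a1 : EvC fun q => q.e₁ ≤ 1 / 200 :=
    EvC.at_e₁ (fun _ t => t ≤ 1 / 200) fun _ => sml_le (by norm_num)
  have a2 : EvC fun q => 0 < kP q → 1000 * q.rT ≤ kP q :=
    EvC.at_rT (fun q t => 0 < kP q → 1000 * t ≤ kP q) fun q => by
      by_cases h : 0 < kP q
      · exact (sml_le (a := kP q / 1000) (by positivity)).mono fun t ht _ => by linarith
      · exact Eventually.of_forall fun _ h' => absurd h' h
  have a3 : EvC fun q => 100 * q.rT ≤ dl q := by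
    have h1 := EvC.at_rT (fun q t => 100 * t ≤ dl q) fun q =>
      (sml_le (a := dl q / 100) (by have := hd0 q; positivity)).mono fun t ht => by linarith
    refine h1.mono fun q hq => ?_
    rwa [hd q] at hq
  have a4 : EvC fun q => H509.Rad.Ok q.e₁ rp → ∀ r, 0 < r → r ≤ 3 * q.p₁ →
      4 * (prL q.e₁ r * prS q.e₁ (r ^ 2)) ≤ q.M₀ :=
    EvC.at_M₀ (fun q t => H509.Rad.Ok q.e₁ rp → ∀ r, 0 < r → r ≤ 3 * q.p₁ →
      4 * (prL q.e₁ r * prS q.e₁ (r ^ 2)) ≤ t) fun q => by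
      by_cases h : H509.Rad.Ok q.e₁ rp
      · obtain ⟨C, hC⟩ := LS_bdd q.e₁ h (3 * q.p₁)
        exact ev_top (4 * C) fun t ht _ r h0 h1 => by linarith [hC r h0 h1]
      · exact Eventually.of_forall fun _ h1 => absurd h1 h
  have a5 : EvC fun q => 0 < q.σ → (n + 2) * (kD n q.e₁ * q.ε) ≤ q.σ :=
    EvC.at_ε (fun q t => 0 < q.σ → (n + 2) * (kD n q.e₁ * t) ≤ q.σ) fun q => by
      by_cases h : 0 < q.σ
      · have hn : (0 : ℝ) ≤ n := Nat.cast_nonneg n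
        have h0 : 0 < q.σ / ((n + 2) * (|kD n q.e₁| + 1)) := by positivity
        filter_upwards [sml_pos, sml_le h0] with t t0 ht _
        rw [le_div_iff₀ (by positivity)] at ht
        have h1 : kD n q.e₁ * t ≤ (|kD n q.e₁| + 1) * t :=
          mul_le_mul_of_nonneg_right (by linarith [le_abs_self (kD n q.e₁)]) t0.le
        have h2 := mul_le_mul_of_nonneg_left h1 (by linarith : (0 : ℝ) ≤ n + 2)
        linarith
      · exact Eventually.of_forall fun _ h1 => absurd h1 h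
  have a6 : EvC fun q => 0 < q.κ₁ → 600 * n * q.p₁ ≤ q.R ∧ 6 * n * q.p₁ ≤ q.κ₁ * q.R ∧
      4 * q.p₁ ≤ q.κ₁ * q.R :=
    EvC.at_R (fun q t => 0 < q.κ₁ → 600 * n * q.p₁ ≤ t ∧ 6 * n * q.p₁ ≤ q.κ₁ * t ∧
      4 * q.p₁ ≤ q.κ₁ * t) fun q => by
      by_cases h : 0 < q.κ₁
      · filter_upwards [eventually_ge_atTop (600 * n * q.p₁),
          eventually_ge_atTop (6 * n * q.p₁ / q.κ₁), eventually_ge_atTop (4 * q.p₁ / q.κ₁)]
          with t t1 t2 t3 _
        rw [div_le_iff₀ h] at t2 t3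
        exact ⟨t1, by linarith, by linarith⟩
      · exact Eventually.of_forall fun _ h1 => absurd h1 h
  refine (((a1.and a2).and (a3.and a4)).and ((a5.and a6).and (ev_gd n))).mono fun q h => ?_
  obtain ⟨⟨⟨b1, b2⟩, b3, b4⟩, ⟨b5, b6⟩, g⟩ := h
  obtain ⟨r1, r2, r3⟩ := b6 g.inf.κ0
  exact ⟨g, b1, b2 (kP_pos g.rad), b3, b4 g.rad, b5 g.inf.σ0, r1, r2, r3⟩

/-! ## The geometry on `OmP` -/

/-- What is known before the gradient is used. -/
structure P0 (q : Cst) (d : Pk n) (z : VV n) : Prop where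
  us : z ∈ (US q : Set (VV n))
  g3 : 3 ≤ H710.GP.rr z
  r1 : q.p₁ - 1 < H747.A.rr d z
  r2 : H747.A.rr d z < 2 * q.p₁ + 1
  l1 : d.l z.1 ≤ d.l₀ q + 12 / 5 * q.R
  l2 : d.l z.2 ≤ d.l₀ q + 12 / 5 * q.R
  dl : |d.l z.1 - d.l z.2| ≤ q.κ₁ * q.R
  w1 : 2 / 25 ≤ √(HY.sq (wR n q.σ q.R z.1))
  w2 : 2 / 25 ≤ √(HY.sq (wR n q.σ q.R z.2))
  up : d.l z.1 + d.l z.2 ≤ 2 * d.l₀ q + 93 / 20 * q.R

theorem rA_sq (h : 0 ≤ d.r2 z) : H747.A.rr d z ^ 2 = d.r2 z := Real.sq_sqrt h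

theorem p0_of {dl : ℝ} (m : SzC n q dl) (h : PkOk q d) {b : Bool} (hz : z ∈ OmP q d b) :
    P0 q d z := by
  obtain ⟨⟨z1, z2, z3, z4, z5, z6, -⟩, y1, y2, -⟩ := hz
  have hp := p_400 m.rad
  have hp4 : 400 ≤ q.p₁ := hp
  have hR := m.inf.R0
  have hr2 : 0 ≤ d.r2 z := (sq_nonneg _).trans y1.le
  have k0 : |d.r2 z - H31.EP.qq z| ≤ 1 / 2 * H31.EP.qq z := dist_le m.toGD h z
  have k1 := abs_le.1 k0
  have q0 := qq_nonneg z
  have us : z ∈ (US q : Set (VV n)) := by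
    show H31.EP.qq z < (3 * q.p₁) ^ 2
    nlinarith
  have g3 : 3 ≤ H710.GP.rr z := by
    refine le_of_sq_le_sq ?_ (rr_nn z)
    rw [rr_sq]
    nlinarith
  have r1 : q.p₁ - 1 < H747.A.rr d z := lt_of_pow_lt_pow_left₀ 2 (Real.sqrt_nonneg _) (by
    rw [rA_sq hr2]; exact y1)
  have r2 : H747.A.rr d z < 2 * q.p₁ + 1 := lt_of_pow_lt_pow_left₀ 2 (by linarith) (by
    rw [rA_sq hr2]; exact y2)
  have hn1 : 1 ≤ n := by
    by_contra hn
    have hn0 : n = 0 := by omega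
    subst hn0
    have e : H31.EP.qq z = 0 := by
      show HY.sq (z.1 - z.2) = 0
      unfold HY.sq
      simp
    rw [e] at k1
    nlinarith
  have hn0 : (1 : ℝ) ≤ n := by exact_mod_cast hn1
  -- the distance in the sup norm
  have hs : ‖z.1 - z.2‖ ≤ 3 * q.p₁ := by
    rw [pi_norm_le_iff_of_nonneg (by linarith)]
    intro i
    rw [Real.norm_eq_abs]
    refine abs_le_of_sq_le_sq ?_ (by linarith)
    have : (z.1 - z.2) i ^ 2 ≤ H31.EP.qq z :=
      Finset.single_le_sum (f := fun i => (z.1 - z.2) i ^ 2) (fun j _ => sq_nonneg _)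
        (Finset.mem_univ i)
    exact this.trans (le_of_lt us)
  have hl := h.lev.lit
  have nR : (n : ℝ) * ‖z.1 - z.2‖ ≤ q.R := by
    have := mul_le_mul_of_nonneg_left hs (by linarith : (0 : ℝ) ≤ n)
    have := m.Ra
    nlinarith
  have y5 : levG n q.σ q.R d.kap d.Gs z.2 ≤ lam0 q.R d.kap d.Gs + 3 * q.R := by
    rw [← hl, ← l₀_eq d q]
    linarith
  have a1 := H222.lev_lip (x := z.1) hn1 m.inf.σ0 m.inf.σ1 hR y5 nR
  rw [← hl] at a1
  have a2 : |d.l z.1 - d.l z.2| ≤ 6 * n * q.p₁ := by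
    refine a1.trans ?_
    have := mul_le_mul_of_nonneg_left hs (by positivity : (0 : ℝ) ≤ 2 * n)
    linarith
  have a3 : |d.l z.1 - d.l z.2| ≤ 1 / 100 * q.R := by
    have := m.Ra
    linarith
  have a3' := abs_le.1 a3
  have hu : d.u q z = d.u0 z := (u_eq m.toGD h g3).self_of_nhds
  rw [hu] at z6
  have z6' : d.l z.1 + d.l z.2 < 2 * d.l₀ q + 45 / 10 * q.R := z6
  have l0 := l₀_le m.inf h
  have hη := m.inf.η1
  have l1' : d.l₀ q ≤ 1 / 100 * q.R := by nlinarith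
  -- no point is deep
  have hσ := m.inf.σ0
  have Rσ : 5000 * q.R ≤ q.R / q.σ := by
    rw [le_div_iff₀ hσ]
    have := m.inf.σ1
    nlinarith
  have hw : ∀ x y : V n, |d.l x - d.l y| ≤ 1 / 100 * q.R →
      -(17 / 10 * (q.R / q.σ)) < d.l x + d.l y → 2 / 25 ≤ √(HY.sq (wR n q.σ q.R x)) := by
    intro x y hxy hlo
    by_contra hc
    have b1 := levG_deep (kap := d.kap) (Gs := d.Gs) hσ m.inf.σ1 hR (not_le.1 hc).le
    rw [← hl, ← l₀_eq d q] at b1
    have b2 := (abs_le.1 hxy).1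
    linarith
  exact ⟨us, g3, r1, r2, by linarith, by linarith, a2.trans m.Rb, hw _ _ a3 z5,
    hw z.2 z.1 (by rwa [abs_sub_comm]) (by linarith), by linarith⟩

/-- The weight near the pass (710's `W_eq` without the condition on depth). -/
theorem W_eq' (hq : GD n q) (h : PkOk q d) (p : P0 q d z) : ∀ᶠ w in 𝓝 z, d.W q w =
      d.Φ (d.u0 w) + Real.exp (d.u0 w) * prS q.e₁ (H31.EP.r2 (gi d.s₁) w) := by
  have hR := hq.inf.R0
  have a1 := p.l1
  have a2 := p.l2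
  have ho : IsOpen (US q : Set (VV n)) := isOpen_lt H222.continuous_qq continuous_const
  filter_upwards [W_near hR h (z := z) (by linarith) (by linarith), u_eq hq h p.g3,
    ho.mem_nhds p.us] with w h2 h3 h4
  rw [h2.2.2.2.2]
  have h5 := dist_le hq h w
  have h6 : H31.EP.r2 (gi d.s₁) w < (q.r₁ * Real.exp (-1)) ^ 2 := by
    have := (abs_le.1 h5).2
    have h7 : H31.EP.qq w < (3 * q.p₁) ^ 2 := h4
    have := hq.rd
    nlinarith
  have e3 : H31.EP.uu (d.F q) d.l (gi d.s₁) w = d.u0 w := h3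
  unfold WW
  rw [e3, st_in' h.ok h6]
  show d.Φ (d.u0 w) + 1 * _ = _
  rw [one_mul]
  rfl

theorem fd_W' (hq : GD n q) (h : PkOk q d) (p : P0 q d z) (v : VV n) :
    fderiv ℝ (d.W q) z v = NT d q z * fderiv ℝ d.u0 z v +
      Real.exp (d.u0 z) * (prS₁ q.e₁ (H31.EP.r2 (gi d.s₁) z) * fderiv ℝ (H31.EP.r2 (gi d.s₁)) z v) := by
  have hu0 := u0_fd h z
  have hΦ : HasDerivAt d.Φ (deriv d.Φ (d.u0 z)) (d.u0 z) :=
    ((h.Φs.differentiable (by simp)) _).hasDerivAt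
  have h2 := hΦ.comp_hasFDerivAt z hu0
  have h3 := hu0.exp
  have h4 := (prS_d1 hq.rad.e0 (H31.EP.r2 (gi d.s₁) z)).comp_hasFDerivAt z (r2_fd hq h z)
  have h5 := h2.add (h3.mul h4)
  have h6 : HasFDerivAt (d.W q) _ z := h5.congr_of_eventuallyEq (W_eq' hq h p)
  rw [h6.fderiv, hu0.fderiv]
  simp only [add_apply, smul_apply, smul_eq_mul, Function.comp_apply]
  unfold NT
  ring

/-- The gradient in the critical slot. -/
def gw (q : Cst) (d : Pk n) (b : Bool) (z : VV n) : V n := fun i => (sP d b).D i (d.W q) z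

/-- The point of the critical slot. -/
def xb (b : Bool) (z : VV n) : V n := bif b then z.1 else z.2

/-- The sign of the critical slot. -/
def sb (b : Bool) : ℝ := bif b then 1 else -1

theorem sb_abs (b : Bool) : |sb b| = 1 := by cases b <;> simp [sb]

/-- The direction. -/
def vb (b : Bool) (i : Fin n) : VV n := bif b then (Pi.single i 1, 0) else (0, Pi.single i 1)

theorem vb_norm (b : Bool) (i : Fin n) : ‖vb b i‖ ≤ 1 := by
  have h1 : ‖(Pi.single i 1 : V n)‖ ≤ 1 := by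
    rw [pi_norm_le_iff_of_nonneg zero_le_one]
    intro j
    by_cases h : j = i
    · subst h; simp
    · simp [Pi.single_eq_of_ne h]
  cases b
  · show ‖((0 : V n), (Pi.single i 1 : V n))‖ ≤ 1
    rw [Prod.norm_def]
    simpa using h1
  · show ‖((Pi.single i 1 : V n), (0 : V n))‖ ≤ 1
    rw [Prod.norm_def]
    simpa using h1

theorem sP_D (b : Bool) (f : VV n → ℝ) (i : Fin n) :
    (sP d b).D i f z = fderiv ℝ f z (vb b i) := by
  cases b
  · show (1 : ℝ) * fderiv ℝ f z (0, Pi.single i 1) = _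
    rw [one_mul]
    rfl
  · show (1 : ℝ) * fderiv ℝ f z (Pi.single i 1, 0) = _
    rw [one_mul]
    rfl

theorem u0_vb (h : PkOk q d) (b : Bool) (i : Fin n) :
    fderiv ℝ d.u0 z (vb b i) = gl d.l (xb b z) i := by
  rw [(u0_fd h z).fderiv]
  cases b
  · simp [vb, xb, gl, pd]
  · simp [vb, xb, gl, pd]

theorem Qd_vb (b : Bool) (i : Fin n) : Qd z (vb b i) = 2 * (sb b * (z.1 i - z.2 i)) := by
  rw [Qd_apply]
  have e : ∀ j, (z.1 j - z.2 j) * ((vb b i).1 j - (vb b i).2 j) =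
      if j = i then sb b * (z.1 j - z.2 j) else 0 := by
    intro j
    cases b
    · by_cases hj : j = i
      · subst hj; simp [vb, sb]
      · simp [vb, hj]
    · by_cases hj : j = i
      · subst hj; simp [vb, sb]
      · simp [vb, hj]
  rw [Finset.sum_congr rfl fun j _ => e j]
  simp

/-- The error of the gradient of the distance. -/
def er (d : Pk n) (b : Bool) (z : VV n) : V n := fun i =>
  fderiv ℝ (fun z => H31.EP.r2 (gi d.s₁) z - H31.EP.qq z) z (vb b i)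

theorem r2_vb (hq : GD n q) (h : PkOk q d) (b : Bool) (i : Fin n) :
    fderiv ℝ (H31.EP.r2 (gi d.s₁)) z (vb b i) = 2 * (sb b * (z.1 i - z.2 i)) + er d b z i := by
  have h2 : HasFDerivAt (fun z => H31.EP.r2 (gi d.s₁) z - H31.EP.qq z)
      (fderiv ℝ (H31.EP.r2 (gi d.s₁)) z - Qd z) z := (r2_fd hq h z).sub (qq_fd z)
  unfold er
  rw [h2.fderiv, sub_apply, Qd_vb]
  ring

theorem en_er (hq : GD n q) (h : PkOk q d) (hn : 1 ≤ n) (us : z ∈ (US q : Set (VV n)))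
    (b : Bool) : en (er d b z) ≤ n * (kD n q.e₁ * q.ε) := by
  have k0 : 0 ≤ kD n q.e₁ * q.ε := mul_nonneg (kD_nn hq) hq.ε0.le
  refine (H222.en_le_norm hn _).trans (mul_le_mul_of_nonneg_left ?_ (Nat.cast_nonneg n))
  rw [pi_norm_le_iff_of_nonneg k0]
  intro i
  rw [Real.norm_eq_abs]
  refine (dist_1 hq h us (vb b i)).trans ?_
  have := mul_le_mul_of_nonneg_left (vb_norm b i) k0
  linarith

/-- **The gradient in the critical slot.** -/
theorem gw_eq (hq : GD n q) (h : PkOk q d) (p : P0 q d z) (b : Bool) :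
    gw q d b z = NT d q z • gl d.l (xb b z) +
      (Real.exp (d.u0 z) * prS₁ q.e₁ (d.r2 z)) • ((2 * sb b) • (z.1 - z.2) + er d b z) := by
  funext i
  show (sP d b).D i (d.W q) z = _
  rw [sP_D, fd_W' hq h p, u0_vb h, r2_vb hq h]
  simp only [Pi.add_apply, Pi.smul_apply, Pi.sub_apply, smul_eq_mul]
  have : d.r2 z = H31.EP.r2 (gi d.s₁) z := rfl
  rw [this]
  ring

theorem Wc2_en (b : Bool) : Wc2 q d b z = en (gw q d b z) ^ 2 := (en_sq _).symm

/-- `L G`. -/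
theorem LG (hq : GD n q) (h0 : 0 < d.r2 z) :
    2 * H747.A.rr d z * (Real.exp (d.u0 z) * prS₁ q.e₁ (d.r2 z)) =
      prL q.e₁ (H747.A.rr d z) * (Real.exp (d.u0 z) * prS q.e₁ (d.r2 z)) := by
  have r0 : 0 < H747.A.rr d z := Real.sqrt_pos.2 h0
  have h1 := hq.rad.pp.Ph1_L r0
  have h2 : 2 * H747.A.rr d z * prS₁ q.e₁ (H747.A.rr d z ^ 2) = prL q.e₁ (H747.A.rr d z) * prS q.e₁ (H747.A.rr d z ^ 2) := h1
  rw [rA_sq h0.le] at h2
  calc 2 * H747.A.rr d z * (Real.exp (d.u0 z) * prS₁ q.e₁ (d.r2 z)) =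
      Real.exp (d.u0 z) * (2 * H747.A.rr d z * prS₁ q.e₁ (d.r2 z)) := by ring
    _ = _ := by rw [h2]; ring

/-- The Euclidean length against `r`. -/
theorem rr_le (hq : GD n q) (h : PkOk q d) (us : z ∈ (US q : Set (VV n))) (h1 : 1 ≤ H747.A.rr d z) :
    H710.GP.rr z ≤ H747.A.rr d z + kD n q.e₁ * q.ε ∧ H747.A.rr d z - kD n q.e₁ * q.ε ≤ H710.GP.rr z := by
  have k0 : 0 ≤ kD n q.e₁ * q.ε := mul_nonneg (kD_nn hq) hq.ε0.le
  have h2 : 0 ≤ d.r2 z := by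
    by_contra hc
    have : H747.A.rr d z = 0 := Real.sqrt_eq_zero_of_nonpos (not_le.1 hc).le
    linarith
  have k1 : |d.r2 z - H31.EP.qq z| ≤ kD n q.e₁ * q.ε := dist_0 hq h us
  have k2 := abs_le.1 k1
  have e1 := rA_sq (d := d) h2
  have e2 := rr_sq z
  constructor
  · refine le_of_sq_le_sq ?_ (by linarith)
    nlinarith
  · rcases le_total (H747.A.rr d z - kD n q.e₁ * q.ε) 0 with hc | hc
    · exact hc.trans (rr_nn z)
    · refine le_of_sq_le_sq ?_ (rr_nn z)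
      nlinarith

/-- `NT = N + G`. -/
theorem NT_eq (hq : GD n q) (h : PkOk q d) (p : P0 q d z) (h0 : 0 < d.r2 z) :
    d.N q z + GG q d z = NT d q z ∧ GG q d z = Real.exp (d.u0 z) * prS q.e₁ (d.r2 z) ∧
      d.N q z = deriv d.Φ (d.u0 z) ∧ 0 < GG q d z := by
  have hu : d.u q z = d.u0 z := (u_eq hq h p.g3).self_of_nhds
  have r0 : 0 < H747.A.rr d z := Real.sqrt_pos.2 h0
  have hp := Cst.p₁_ge hq.rad
  have r1 : H747.A.rr d z < q.r₁ * Real.exp (-1) := by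
    have h1 := hq.rd
    have h2 := p.r2
    have h3 : 0 < q.r₁ * Real.exp (-1) := h.ok.rc0.trans h.ok.rcd
    refine lt_of_pow_lt_pow_left₀ 2 h3.le ?_
    have h4 : 0 ≤ H747.A.rr d z := Real.sqrt_nonneg _
    have h5 := p_400 hq.rad
    have h6 : 400 ≤ q.p₁ := h5
    nlinarith
  have h1 := h.sl.inn 1 0 (ff q d z, H747.A.rr d z) r0 r1
  simp only [if_true] at h1
  have hS : 0 < prS q.e₁ (d.r2 z) := hq.rad.pp.S_pos h0
  have h2 : GG q d z = Real.exp (ff q d z) := h1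
  have h3 : GG q d z = Real.exp (d.u0 z) * prS q.e₁ (d.r2 z) := by
    rw [h2]
    unfold ff lS
    rw [rA_sq h0.le, hu, Real.exp_add, Real.exp_log hS]
  have h4 : d.N q z = deriv d.Φ (d.u0 z) := by
    show deriv d.Φ (d.u q z) = _
    rw [hu]
  refine ⟨?_, h3, h4, ?_⟩
  · rw [h3, h4]
    rfl
  · rw [h3]
    positivity

/-! ## The sizes -/

/-- What is known on `OmP`. -/
structure PZ (q : Cst) (d : Pk n) (b : Bool) (z : VV n) : Prop where
  no : NO q d z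
  nd : ND q d z
  G0 : 0 < GG q d z
  gw : en (gw q d b z) ≤ 9 * q.rT * GG q d z
  NT : d.N q z + GG q d z ≤ 11 / 10 * GG q d z
  N : |d.N q z - (lS₁ q (H747.A.rr d z) - 1) * GG q d z| ≤ 11 * q.rT * GG q d z
  M : q.M₀ ≤ d.N q z

/-- The length of the second part of the gradient. -/
theorem en_w {dl : ℝ} (m : SzC n q dl) (h : PkOk q d) (hn : 1 ≤ n) (p : P0 q d z)
    (h0 : 0 < d.r2 z) (b : Bool) :
    (1 - q.σ) * (prL q.e₁ (H747.A.rr d z) * GG q d z) ≤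
      en ((Real.exp (d.u0 z) * prS₁ q.e₁ (d.r2 z)) • ((2 * sb b) • (z.1 - z.2) + er d b z)) ∧
    en ((Real.exp (d.u0 z) * prS₁ q.e₁ (d.r2 z)) • ((2 * sb b) • (z.1 - z.2) + er d b z)) ≤
      (1 + q.σ) * (prL q.e₁ (H747.A.rr d z) * GG q d z) := by
  have hp : 400 ≤ q.p₁ := p_400 m.rad
  have r1 : 1 ≤ H747.A.rr d z := by linarith [p.r1]
  obtain ⟨-, g2, -, g4⟩ := NT_eq m.toGD h p h0
  have hLG := LG m.toGD h0 (z := z)
  rw [← g2] at hLG
  obtain ⟨k1, k2⟩ := rr_le m.toGD h p.us r1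
  have k3 := en_er m.toGD h hn p.us b
  have k0 : 0 ≤ kD n q.e₁ * q.ε := mul_nonneg (kD_nn m.toGD) m.ε0.le
  have hL : 0 < prL q.e₁ (H747.A.rr d z) := m.rad.Lpos _
  have E0 : 0 ≤ Real.exp (d.u0 z) * prS₁ q.e₁ (d.r2 z) := by
    by_contra hc
    have := mul_pos hL g4
    nlinarith
  have e1 : en ((2 * sb b) • (z.1 - z.2)) = 2 * H710.GP.rr z := by
    rw [en_sm, abs_mul, sb_abs, abs_two, mul_one]
    rfl
  have t1 := en_tri ((2 * sb b) • (z.1 - z.2)) (er d b z)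
  have t2 : en ((2 * sb b) • (z.1 - z.2)) ≤
      en ((2 * sb b) • (z.1 - z.2) + er d b z) + en (er d b z) := by
    have := en_tri' ((2 * sb b) • (z.1 - z.2) + er d b z) (er d b z)
    rwa [add_sub_cancel_right] at this
  rw [e1] at t1 t2
  rw [en_sm, abs_of_nonneg E0]
  set E' := Real.exp (d.u0 z) * prS₁ q.e₁ (d.r2 z) with hE
  set k := kD n q.e₁ * q.ε with hk
  set LG := prL q.e₁ (H747.A.rr d z) * GG q d z with hLG'
  have E1 : E' ≤ LG := by
    rw [← hLG]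
    nlinarith
  have s1 : E' * ((n + 2) * k) ≤ LG * q.σ :=
    mul_le_mul E1 m.εs (by positivity) (mul_pos hL g4).le
  constructor
  · have s2 : E' * (2 * H747.A.rr d z - (n + 2) * k) ≤
        E' * en ((2 * sb b) • (z.1 - z.2) + er d b z) :=
      mul_le_mul_of_nonneg_left (by linarith) E0
    linarith
  · have s2 : E' * en ((2 * sb b) • (z.1 - z.2) + er d b z) ≤
        E' * (2 * H747.A.rr d z + (n + 2) * k) :=
      mul_le_mul_of_nonneg_left (by linarith) E0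
    linarith

private lemma num_T {σ t T L G : ℝ} (hσ : 0 < σ) (hσ1 : σ ≤ 1 / 5000) (ht : 0 < t)
    (ht1 : t ≤ 1 / 400) (σr : 3 * σ ≤ t) (T0 : 0 < T) (G0 : 0 < G) (L0 : 0 ≤ L)
    (L1 : L ≤ 103 / 100) (c1 : (1 - σ) * T ≤ 8 * t * T + (1 + σ) * (L * G))
    (c2 : (1 - σ) * (L * G) ≤ 8 * t * T + (1 + 3 * σ) * T) :
    T ≤ 11 / 10 * G ∧ |T - L * G| ≤ 11 * t * G ∧ 8 * t * T ≤ 9 * t * G := by
  have LG0 : 0 ≤ L * G := mul_nonneg L0 G0.le
  have LG1 : L * G ≤ 103 / 100 * G := mul_le_mul_of_nonneg_right L1 G0.le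
  have T1 : T ≤ 11 / 10 * G := by
    have a1 : (1 + σ) * (L * G) ≤ (1 + 1 / 5000) * (103 / 100 * G) :=
      mul_le_mul (by linarith) LG1 LG0 (by norm_num)
    have a2 : (σ + 8 * t) * T ≤ (1 / 5000 + 8 / 400) * T :=
      mul_le_mul_of_nonneg_right (by linarith) T0.le
    linarith
  have s1 : σ * T ≤ t / 3 * T := mul_le_mul_of_nonneg_right (by linarith) T0.le
  have s2 : σ * (L * G) ≤ t / 3 * (103 / 100 * G) :=
    mul_le_mul (by linarith) LG1 LG0 (by linarith)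
  have s3 : t * T ≤ t * (11 / 10 * G) := mul_le_mul_of_nonneg_left T1 ht.le
  have rG : 0 < t * G := mul_pos ht G0
  refine ⟨T1, ?_, by linarith⟩
  rw [abs_le]
  constructor
  · linarith
  · linarith

theorem n_pos (p : P0 q d z) : 1 ≤ n := by
  by_contra hn
  have hn0 : n = 0 := by omega
  subst hn0
  have h3 := p.g3
  have e : H710.GP.rr z = 0 := by
    show √(HY.sq (z.1 - z.2)) = 0
    unfold HY.sq
    simp
  linarith

/-- The two sides of the gradient, and its smallness. -/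
theorem gw_bd {dl : ℝ} (m : SzC n q dl) (h : PkOk q d) {b : Bool} (hz : z ∈ OmP q d b)
    (p : P0 q d z) (h0 : 0 < d.r2 z) : 0 < NT d q z ∧ q.M₀ ≤ d.N q z ∧
      en (gw q d b z) ≤ 8 * q.rT * NT d q z ∧
      NT d q z * en (gl d.l (xb b z)) ≤ 8 * q.rT * NT d q z +
        (1 + q.σ) * (prL q.e₁ (H747.A.rr d z) * GG q d z) ∧
      (1 - q.σ) * (prL q.e₁ (H747.A.rr d z) * GG q d z) ≤ 8 * q.rT * NT d q z +
        NT d q z * en (gl d.l (xb b z)) := by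
  obtain ⟨-, -, -, y3⟩ := hz
  obtain ⟨g1, g2, g3, g4⟩ := NT_eq m.toGD h p h0
  obtain ⟨w1, w2⟩ := en_w m h (n_pos p) p h0 b
  have eg := gw_eq m.toGD h p b
  have hN : q.M₀ ≤ d.N q z := by
    rw [g3]
    exact h.N_ge (d.u0 z)
  have hM1 := m.M1
  have NT0 : 0 < NT d q z := by linarith
  have hrT := m.rT0
  have hgw : en (gw q d b z) ≤ 8 * q.rT * NT d q z := by
    have : Wc2 q d b z < (8 * q.rT * H747.A.NG q d z) ^ 2 := y3
    rw [Wc2_en] at this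
    have e : H747.A.NG q d z = NT d q z := g1
    rw [e] at this
    exact (abs_le_of_sq_le_sq' this.le (by positivity)).2
  have e1 : NT d q z * en (gl d.l (xb b z)) = en (NT d q z • gl d.l (xb b z)) := by
    rw [en_sm, abs_of_pos NT0]
  generalize (Real.exp (d.u0 z) * prS₁ q.e₁ (d.r2 z)) • ((2 * sb b) • (z.1 - z.2) + er d b z) = wv
    at *
  have t1 : NT d q z * en (gl d.l (xb b z)) ≤ en (gw q d b z) + en wv := by
    rw [e1]
    have := en_tri' (gw q d b z) wv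
    rwa [eg, add_sub_cancel_right, ← eg] at this
  have t2 : en wv ≤ en (gw q d b z) + NT d q z * en (gl d.l (xb b z)) := by
    rw [e1]
    have := en_tri' (gw q d b z) (NT d q z • gl d.l (xb b z))
    rwa [eg, add_sub_cancel_left, ← eg] at this
  exact ⟨NT0, hN, hgw, by linarith, by linarith⟩

theorem u0_nn {dl : ℝ} (m : SzC n q dl) (h : PkOk q d) {b : Bool} (hz : z ∈ OmP q d b)
    (p : P0 q d z) (h0 : 0 < d.r2 z) : 0 ≤ d.u0 z := by
  obtain ⟨NT0, hN, -, k1, -⟩ := gw_bd m h hz p h0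
  obtain ⟨g1, g2, g3, g4⟩ := NT_eq m.toGD h p h0
  obtain ⟨f1, f2, f3, -⟩ := prof (r := H747.A.rr d z) m.rad m.e5 p.r1 p.r2
  have f2' : 97 / 100 ≤ prL q.e₁ (H747.A.rr d z) := f2
  have hgg1 : H475.gg n q.σ (q.R⁻¹ • z.1) ≤ 12 / 5 := (gl_le m.inf h).2 p.l1
  have hgg2 : H475.gg n q.σ (q.R⁻¹ • z.2) ≤ 12 / 5 := (gl_le m.inf h).2 p.l2
  have hx1 : 24 / 25 ≤ en (gl d.l (xb b z)) := by
    cases b
    · exact (gl_near m.inf h hgg2 p.w2).1
    · exact (gl_near m.inf h hgg1 p.w1).1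
  have hp : 400 ≤ q.p₁ := p_400 m.rad
  have hσ := m.inf.σ0
  have hσ1 := m.inf.σ1
  have hrT := m.rT0
  have hrT1 := m.rT1
  have hM1 := m.M1
  by_contra hc
  have he : Real.exp (d.u0 z) ≤ 1 := Real.exp_le_one_iff.2 (not_le.1 hc).le
  have r0 : 0 < H747.A.rr d z := Real.sqrt_pos.2 h0
  have hM := m.M4 (H747.A.rr d z) r0 (by linarith [p.r2])
  rw [rA_sq h0.le] at hM
  have hS : 0 < prS q.e₁ (d.r2 z) := m.rad.pp.S_pos h0
  have hLG : prL q.e₁ (H747.A.rr d z) * GG q d z ≤ prL q.e₁ (H747.A.rr d z) * prS q.e₁ (d.r2 z) := by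
    refine mul_le_mul_of_nonneg_left ?_ (by linarith)
    rw [g2]
    exact mul_le_of_le_one_left hS.le he
  have k2 := mul_le_mul_of_nonneg_left hx1 NT0.le
  have k3 : (1 + q.σ) * (prL q.e₁ (H747.A.rr d z) * GG q d z) ≤ (1 + 1 / 5000) * (1 / 4 * q.M₀) := by
    have : 0 ≤ prL q.e₁ (H747.A.rr d z) * GG q d z := mul_nonneg (by linarith) g4.le
    exact mul_le_mul (by linarith) (by linarith) this (by norm_num)
  have k4 : 8 * q.rT * NT d q z ≤ 8 / 400 * NT d q z :=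
    mul_le_mul_of_nonneg_right (by linarith) NT0.le
  have k5 : q.M₀ ≤ NT d q z := by linarith
  linarith

theorem no_of' {dl : ℝ} (m : SzC n q dl) (h : PkOk q d) (p : P0 q d z) (hu : 0 ≤ d.u0 z) :
    NO q d z := by
  have hR := m.inf.R0
  have hσ := m.inf.σ0
  have Rσ : 0 ≤ q.R / q.σ := by positivity
  have hp : 400 ≤ q.p₁ := p_400 m.rad
  refine ⟨?_, (gl_le m.inf h).2 p.l1, (gl_le m.inf h).2 p.l2, ?_, p.w1, p.w2, ?_, p.up⟩
  · have h1 : H710.GP.rr z ≤ 3 * q.p₁ := by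
      refine le_of_sq_le_sq ?_ (by linarith)
      rw [rr_sq]
      exact le_of_lt p.us
    have h2 := m.Rc
    have h3 : √(HY.sq (z.1 - z.2)) = H710.GP.rr z := rfl
    rw [h3]
    linarith
  · rw [(lvG m.inf h).gl, (lvG m.inf h).gl, ← sub_div, abs_div, abs_of_pos hR,
      div_le_iff₀ hR]
    have e : d.l z.1 - d.l₀ q - (d.l z.2 - d.l₀ q) = d.l z.1 - d.l z.2 := by ring
    rw [e]
    exact p.dl
  · have : 0 ≤ d.l z.1 + d.l z.2 := hu
    linarith

theorem pz_of {dl : ℝ} (m : SzC n q dl) (h : PkOk q d) {b : Bool} (hz : z ∈ OmP q d b) :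
    PZ q d b z := by
  have p := p0_of m h hz
  have h0 : 0 < d.r2 z := lt_of_le_of_lt (sq_nonneg _) hz.1.1
  obtain ⟨NT0, hN, k0, k1, k2⟩ := gw_bd m h hz p h0
  obtain ⟨g1, -, -, g4⟩ := NT_eq m.toGD h p h0
  obtain ⟨-, f2, f3, -⟩ := prof (r := H747.A.rr d z) m.rad m.e5 p.r1 p.r2
  have f2' : 97 / 100 ≤ prL q.e₁ (H747.A.rr d z) := f2
  have f3' : prL q.e₁ (H747.A.rr d z) ≤ 103 / 100 := f3
  have hu := u0_nn m h hz p h0
  have no := no_of' m h p hu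
  have nd : ND q d z := nd_of m.inf h no hu
  have x1 : 1 - q.σ ≤ en (gl d.l (xb b z)) := by
    cases b
    · exact nd.g2
    · exact nd.g1
  have x2 : en (gl d.l (xb b z)) ≤ 1 + 3 * q.σ := by
    cases b
    · exact nd.g2'
    · exact nd.g1'
  have v1 := mul_le_mul_of_nonneg_left x1 NT0.le
  have v2 := mul_le_mul_of_nonneg_left x2 NT0.le
  obtain ⟨T1, T2, T3⟩ := num_T m.inf.σ0 m.inf.σ1 m.rT0 m.rT1 m.σ1 NT0 g4
    (by linarith : 0 ≤ prL q.e₁ (H747.A.rr d z)) f3' (by linarith) (by linarith)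
  refine ⟨no, nd, g4, k0.trans T3, ?_, ?_, hN⟩
  · rw [g1]
    exact T1
  · have e2 : d.N q z - (lS₁ q (H747.A.rr d z) - 1) * GG q d z =
        NT d q z - prL q.e₁ (H747.A.rr d z) * GG q d z := by
      have e3 : lS₁ q (H747.A.rr d z) = prL q.e₁ (H747.A.rr d z) := rfl
      rw [e3, ← g1]
      ring
    rw [e2]
    exact T2

/-- **The slope at the pass**: `N ≈ (L - 1) G`. -/
theorem pass_N (n : ℕ) (dl : Cst → ℝ) (hd : NB_rT dl) (hd0 : ∀ q, 0 < dl q) :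
    EvC fun q => ∀ d : Pk n, PkOk q d → ∀ b : Bool, ∀ z ∈ OmP q d b,
      NO q d z ∧ ND q d z ∧ (∀ᶠ w in 𝓝 z, d.u q w = d.u0 w) ∧ 0 < GG q d z ∧
      en (gw q d b z) ≤ dl q * GG q d z ∧
      |d.N q z - (lS₁ q (H747.A.rr d z) - 1) * GG q d z| ≤ dl q * GG q d z ∧
      (lS₁ q (H747.A.rr d z) - 1) * q.p₁ ≤ 3 / 10 := by
  refine (ev_sz n dl hd hd0).mono fun q m d h b z hz => ?_
  have p := p0_of m h hz
  have P := pz_of m h hz
  have hrT := m.rT0
  have hd' := m.rTd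
  have hG := P.G0
  obtain ⟨f1, -⟩ := prof (r := H747.A.rr d z) m.rad m.e5 p.r1 p.r2
  have k1 : 11 * q.rT * GG q d z ≤ dl q * GG q d z :=
    mul_le_mul_of_nonneg_right (by linarith) hG.le
  have k2 : 9 * q.rT * GG q d z ≤ dl q * GG q d z :=
    mul_le_mul_of_nonneg_right (by linarith) hG.le
  exact ⟨P.no, P.nd, u_eq m.toGD h p.g3, hG, P.gw.trans k2, P.N.trans k1, f1⟩

/-! ## The row -/

/-- **Row P-SZ.**  Sizes at the pass; the last bound with `41 / 20` (561's correction). -/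
def RowPSz' (n : ℕ) : Prop := ∀ N₁ e₂ : Cst → ℝ, NB_M₀ N₁ → NB_e₁ e₂ → (∀ q, 0 < e₂ q) →
  EvC fun q => 0 < kP q ∧ kP q ≤ e₂ q ∧ ∀ d : Pk n, PkOk q d → ∀ b : Bool, ∀ z ∈ OmP q d b,
    N₁ q ≤ GG q d z ∧ 0 ≤ d.N q z ∧ d.N q z ≤ kP q * GG q d z ∧
    H230.W.nn (H230.W.gr (sP d b) (d.W q) z) + 2 * d.N q z ≤ 2 * kP q * GG q d z ∧
    97 / 100 ≤ lS₁ q (H747.A.rr d z) ∧ lS₁ q (H747.A.rr d z) ≤ 103 / 100 ∧
    |lS₂ q (H747.A.rr d z)| ≤ e₂ q * kP q ∧ 100 ≤ H747.A.rr d z ∧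
    kP q * GG q d z ≤ KP q d z ∧ KP q d z ≤ 9 / 4 * kP q * GG q d z ∧
    0 ≤ deriv (deriv d.Φ) (d.u q z) ∧ deriv (deriv d.Φ) (d.u q z) ≤ 41 / 20 * d.N q z

theorem nn_gr (b : Bool) : H230.W.nn (H230.W.gr (sP d b) (d.W q) z) = en (gw q d b z) := by
  unfold H230.W.nn H230.W.gr en gw HY.sq H230.W.dd
  congr 1
  refine Finset.sum_congr rfl fun i _ => ?_
  ring

theorem rowPSz' (n : ℕ) : RowPSz' n := by
  intro N₁ e₂ hN₁ he₂ he0
  have c1 : EvC fun q => q.e₁ ≤ e₂ q / 10 := by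
    have h1 := EvC.at_e₁ (fun q t => t ≤ e₂ q / 10) fun q =>
      sml_le (by have := he0 q; positivity)
    refine h1.mono fun q hq => ?_
    have e := he₂ q
    rw [e] at hq
    exact hq
  have c2 : EvC fun q => 2 * N₁ q ≤ q.M₀ := by
    have h1 := EvC.at_M₀ (fun q t => 2 * N₁ q ≤ t) fun q => eventually_ge_atTop _
    refine h1.mono fun q hq => ?_
    have e := hN₁ q
    rw [e] at hq
    exact hq
  refine ((ev_sz n (fun _ => 1) (fun _ => rfl) fun _ => one_pos).and (c1.and c2)).mono ?_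
  rintro q ⟨m, d1, d2⟩
  have hk := kP_pos m.rad
  have he := m.rad.e0
  have hp : 400 ≤ q.p₁ := p_400 m.rad
  have p0 : 0 < q.p₁ := by linarith
  have hkp : kP q * q.p₁ = 12 / 25 := by
    unfold kP
    field_simp
  have hpe : 4 ≤ q.p₁ * q.e₁ := by
    have : 4 / q.e₁ ≤ q.p₁ := p_big m.rad
    rwa [div_le_iff₀ he] at this
  have hke : kP q ≤ q.e₁ := by nlinarith
  refine ⟨hk, by linarith [he0 q], fun d h b z hz => ?_⟩
  have p := p0_of m h hz
  have P := pz_of m h hz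
  have h0 : 0 < d.r2 z := lt_of_le_of_lt (sq_nonneg _) hz.1.1
  obtain ⟨f1, f2, f3, f4⟩ := prof (r := H747.A.rr d z) m.rad m.e5 p.r1 p.r2
  have f1' : (prL q.e₁ (H747.A.rr d z) - 1) * q.p₁ ≤ 3 / 10 := f1
  have f2' : 97 / 100 ≤ prL q.e₁ (H747.A.rr d z) := f2
  have f3' : prL q.e₁ (H747.A.rr d z) ≤ 103 / 100 := f3
  have f4' : prE q.e₁ (H747.A.rr d z) ≤ 2 * q.e₁ := f4
  have hG := P.G0
  have hM1 := m.M1
  have hN := P.M
  have hrT := m.rT0
  have hr4 := m.rT4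
  have r0 : 0 < H747.A.rr d z := Real.sqrt_pos.2 h0
  have r1 := p.r1
  have r2 := p.r2
  have kG : 0 < kP q * GG q d z := mul_pos hk hG
  -- `N ≤ 7/10 κ G`
  have N1 : d.N q z ≤ 7 / 10 * (kP q * GG q d z) := by
    have a1 := (abs_le.1 P.N).2
    have a2 : (lS₁ q (H747.A.rr d z) - 1) ≤ 5 / 8 * kP q := by
      have e : lS₁ q (H747.A.rr d z) = prL q.e₁ (H747.A.rr d z) := rfl
      rw [e]
      have : (prL q.e₁ (H747.A.rr d z) - 1) * q.p₁ ≤ 5 / 8 * kP q * q.p₁ := by linarith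
      exact le_of_mul_le_mul_right this p0
    have a3 := mul_le_mul_of_nonneg_right a2 hG.le
    have a4 : 11 * q.rT * GG q d z ≤ 11 / 1000 * kP q * GG q d z :=
      mul_le_mul_of_nonneg_right (by linarith) hG.le
    linarith
  have W1 : en (gw q d b z) ≤ 9 / 1000 * (kP q * GG q d z) := by
    have a4 : 9 * q.rT * GG q d z ≤ 9 / 1000 * kP q * GG q d z :=
      mul_le_mul_of_nonneg_right (by linarith) hG.le
    linarith [P.gw]
  have E1 : |lS₂ q (H747.A.rr d z)| ≤ e₂ q * kP q := by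
    have ef0 : 0 ≤ prE q.e₁ (H747.A.rr d z) := m.rad.pp.ef_nonneg r0
    have hL : 0 < prL q.e₁ (H747.A.rr d z) := m.rad.Lpos _
    have e : |lS₂ q (H747.A.rr d z)| = prE q.e₁ (H747.A.rr d z) * prL q.e₁ (H747.A.rr d z) / H747.A.rr d z := by
      unfold lS₂
      rw [abs_neg, abs_of_nonneg (by positivity)]
    rw [e, div_le_iff₀ r0]
    have a1 : prE q.e₁ (H747.A.rr d z) * prL q.e₁ (H747.A.rr d z) ≤ 2 * q.e₁ * (103 / 100) :=
      mul_le_mul f4' f3' hL.le (by positivity)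
    have a2 : kP q * (q.p₁ - 1) ≤ kP q * H747.A.rr d z := mul_le_mul_of_nonneg_left r1.le hk.le
    have a3 : 47 / 100 ≤ kP q * (q.p₁ - 1) := by
      have : kP q ≤ 1 / 200 := hke.trans m.e5
      linarith
    have a4 : e₂ q * (47 / 100) ≤ e₂ q * (kP q * H747.A.rr d z) :=
      mul_le_mul_of_nonneg_left (a3.trans a2) (he0 q).le
    have := he0 q
    linarith
  have K1 : kP q * GG q d z ≤ KP q d z := by
    have e : KP q d z = GG q d z * prL q.e₁ (H747.A.rr d z) / H747.A.rr d z := rfl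
    rw [e, le_div_iff₀ r0]
    have a1 : kP q * H747.A.rr d z ≤ kP q * (2 * q.p₁ + 1) := mul_le_mul_of_nonneg_left r2.le hk.le
    have a2 : kP q * H747.A.rr d z ≤ prL q.e₁ (H747.A.rr d z) := by
      have : kP q ≤ 1 / 200 := hke.trans m.e5
      linarith
    have := mul_le_mul_of_nonneg_left a2 hG.le
    linarith
  have K2 : KP q d z ≤ 9 / 4 * kP q * GG q d z := by
    have e : KP q d z = GG q d z * prL q.e₁ (H747.A.rr d z) / H747.A.rr d z := rfl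
    rw [e, div_le_iff₀ r0]
    have a1 : kP q * (q.p₁ - 1) ≤ kP q * H747.A.rr d z := mul_le_mul_of_nonneg_left r1.le hk.le
    have a2 : prL q.e₁ (H747.A.rr d z) ≤ 9 / 4 * (kP q * H747.A.rr d z) := by
      have : kP q ≤ 1 / 200 := hke.trans m.e5
      linarith
    have := mul_le_mul_of_nonneg_left a2 hG.le
    linarith
  refine ⟨?_, by linarith, by linarith, ?_, f2', f3', E1, by linarith, K1, K2, ?_, ?_⟩
  · have := P.NT
    linarith
  · rw [nn_gr]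
    linarith
  · exact (h.top.k0 (d.u q z)).le
  · have h1 : d.u q z < d.uta q := hz.1.2.2.2.2.2.1
    have h2 := h.top.k1 (d.u q z) h1.le
    have h3 : d.N q z = deriv d.Φ (d.u q z) := rfl
    rw [h3]
    linarith

/-- **Row P-SZ**, the literal form. -/
theorem rowPSz (n : ℕ) : H660.P.RowPSz n := fun N₁ e₂ h1 h2 h3 =>
  (rowPSz' n N₁ e₂ h1 h2 h3).mono fun q ⟨a1, a2, a3⟩ => ⟨a1, a2, fun d h b z hz => by
    obtain ⟨b1, b2, b3, b4, b5, b6, b7, b8, b9, b10, b11, b12⟩ := a3 d h b z hz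
    exact ⟨b1, b2, b3, b4, b5, b6, b7, b8, b9, b10, b11, by linarith⟩⟩

end Vale.Agent.P088.R2.H222.P
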